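import Vale.Agent.P038.H482.Final

/-!
# P038, Q1: Seymour's second neighbourhood conjecture

An oriented graph on a nonempty finite vertex set `V` is given by its arc relation `A` with
`A u v → ¬ A v u` (so there are no loops and no pairs of opposite arcs).  Some vertex `v` has at
most as many out-neighbours as vertices at directed distance exactly two.
-/

theorem Vale.Agent.Results.P038.AASeymour.result {V : Type*} [Fintype V] [Nonempty V]
    (A : V → V → Prop) (hA : ∀ u v, A u v → ¬ A v u) :
    ∃ v, Nat.card {u // A v u} ≤ Nat.card {x // x ≠ v ∧ ¬ A v x ∧ ∃ u, A v u ∧ A u x} :=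
  Vale.Agent.P038.H482.seymour V A hA
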