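import Vale.Agent.P038.U877.Fin

universe u

/-- Seymour's second neighbourhood conjecture: every nonempty finite oriented graph (no loops and no
two opposite arcs) has a vertex `v` whose set of vertices at directed distance exactly two is at
least as large as its set of out-neighbours. -/
theorem Vale.Agent.Results.P038.AASeymourConjecture.result :
    ∀ {V : Type u} [Finite V] [Nonempty V] (D : V → V → Prop),
      (∀ v, ¬ D v v) → (∀ u v, D u v → ¬ D v u) →
      ∃ v : V, Set.ncard {x : V | D v x} ≤
        Set.ncard {x : V | x ≠ v ∧ ¬ D v x ∧ ∃ y, D v y ∧ D y x} := by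
  intro V _ _ D hirr hasym
  exact Vale.Agent.P038.U877.seymour_ncard V D hirr hasym
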