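import Vale.Agent.P038.H982.Final

universe u

/-- **Seymour's second neighbourhood conjecture.** Every nonempty finite oriented graph (a relation
`arc` on a nonempty finite type, without loops and without opposite arcs) has a vertex `v` with
`|N₁(v)| ≤ |N₂(v)|`, where `N₁(v)` is the set of out-neighbours of `v` and `N₂(v)` is the set of
all `w ≠ v` which are not out-neighbours of `v` and have `v → x → w` for some `x`. -/
theorem Vale.Agent.Results.P038.AFullSecondNeighbourhood.result :
    ∀ (V : Type u) [Finite V] [Nonempty V] (arc : V → V → Prop),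
      (∀ v, ¬ arc v v) → (∀ v w, arc v w → ¬ arc w v) →
      ∃ v : V, {x : V | arc v x}.ncard ≤
        {w : V | w ≠ v ∧ ¬ arc v w ∧ ∃ x, arc v x ∧ arc x w}.ncard := by
  intro V _ _ arc _ hasym
  have := Fintype.ofFinite V
  obtain ⟨v, hv⟩ := Vale.Agent.P038.H982.snc arc hasym
  exact ⟨v, hv⟩
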