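import Vale.Agent.P038.Defs
import Vale.Agent.P038.H519.GG

open Vale.Agent.P038

universe u

/-- Seymour's second neighbourhood conjecture: every nonempty finite oriented graph has a vertex `v`
with `|N₁⁺(v)| ≤ |N₂⁺(v)|`. -/
theorem Vale.Agent.Results.P038.ASecondNeighbourhood.result :
    ∀ {V : Type u} [Fintype V] [Nonempty V] (D : OGraph V),
      ∃ v, (N1 D v).card ≤ (N2 D v).card := by
  classical
  intro V _ _ D
  obtain ⟨v, hv⟩ := H519.seymour (N1 D) (fun v hv => D.loopless v (mem_N1.1 hv))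
    (fun u v h1 h2 => D.asymm u v (mem_N1.1 h1) (mem_N1.1 h2))
  refine ⟨v, hv.trans (Finset.card_le_card ?_)⟩
  intro x hx
  obtain ⟨_, h1, h2, u, hu, hxu⟩ := Finset.mem_filter.1 hx
  exact mem_N2.2 ⟨h1, fun h => h2 (mem_N1.2 h), u, mem_N1.1 hu, mem_N1.1 hxu⟩
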