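import Vale.Agent.P038.H686.Final

/-!
# P038: Seymour's second neighbourhood conjecture

Every nonempty finite oriented graph has a vertex `v` with `|N₁⁺(v)| ≤ |N₂⁺(v)|`.
-/

namespace Vale.Agent.Results.P038.ASeymourConjecture

open Vale.Agent.P038

/-- Every nonempty finite oriented graph `D` has a vertex `v` whose second out-neighbourhood is at
least as large as its out-neighbourhood. -/
theorem result : ∀ (V : Type*) [Fintype V] [Nonempty V] (D : OGraph V),
    ∃ v : V, (N1 D v).card ≤ (N2 D v).card :=
  fun _ _ _ D => H686.seymour D

end Vale.Agent.Results.P038.ASeymourConjecture
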