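import Vale.Agent.P038.H588.Final

/-- Seymour's second neighbourhood conjecture, in full: for every nonempty finite vertex set `V` and
every relation `A` on `V` (`A u v` means that there is an arc from `u` to `v`) without loops and
without pairs of opposite arcs, some vertex `v` has at least as many second out-neighbours as
out-neighbours. -/
theorem Vale.Agent.Results.P038.ASeymourFull.result {V : Type*} [Finite V] [Nonempty V]
    (A : V → V → Prop) (hloop : ∀ v, ¬ A v v) (hasymm : ∀ u v, A u v → ¬ A v u) :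
    ∃ v, {u | A v u}.ncard ≤ {x | x ≠ v ∧ ¬ A v x ∧ ∃ u, A v u ∧ A u x}.ncard := by
  classical
  have : Fintype V := Fintype.ofFinite V
  obtain ⟨v, hv⟩ := Vale.Agent.P038.H588.seymour ⟨A, hloop, hasymm⟩
  refine ⟨v, ?_⟩
  have e1 : {u | A v u} = (Vale.Agent.P038.N1 ⟨A, hloop, hasymm⟩ v : Set V) := by
    ext x
    simp [Vale.Agent.P038.mem_N1]
  have e2 : {x | x ≠ v ∧ ¬ A v x ∧ ∃ u, A v u ∧ A u x} =
      (Vale.Agent.P038.N2 ⟨A, hloop, hasymm⟩ v : Set V) := by
    ext x
    simp [Vale.Agent.P038.mem_N2]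
  rw [e1, e2, Set.ncard_coe_finset, Set.ncard_coe_finset]
  exact hv
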