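import Vale.Agent.P038.H194.Closed

open Vale.Agent.P038 Vale.Agent.P038.H194

universe u

/-- Seymour's second neighbourhood conjecture, with equality, for every oriented graph in which at
every vertex `v` the second out-neighbourhood can be matched, along arcs, into the first one.
(1) It is enough that Hall's condition holds at the vertices of a nonempty set closed under arcs,
for example at the vertices that can be reached from one vertex. (2) The same with positive vertex
weights and fractional matchings. (3) A degree condition that implies Hall's condition.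
(4) If there is a fractional matching at every vertex, a walk along arcs `v → x` such that some
fractional matching at `v` does not use all of `x` never returns within distance two to an earlier
vertex, so some vertex `v` has no such arc. -/
theorem Vale.Agent.Results.P038.HallClass.result :
    (∀ {V : Type u} [Fintype V] (D : OGraph V) (S : Set V), S.Nonempty → OutClosed D S →
      (∀ v ∈ S, Hall D v) → ∃ v ∈ S, (N1 D v).card = (N2 D v).card) ∧
    (∀ {V : Type u} [Fintype V] (D : OGraph V) (S : Set V) (w : V → ℝ), S.Nonempty →
      OutClosed D S → (∀ v ∈ S, 0 < w v) → (∀ v ∈ S, ∃ φ, Plan D w v φ) →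
      ∃ v ∈ S, ∑ x ∈ N1 D v, w x = ∑ z ∈ N2 D v, w z) ∧
    (∀ {V : Type u} [Fintype V] (D : OGraph V) (v : V), DegreeCondition D v → Hall D v) ∧
    (∀ {V : Type u} [Fintype V] (D : OGraph V) (w : V → ℝ), (∀ v, 0 < w v) →
      (∀ v, ∃ φ, Plan D w v φ) →
      (∀ (u : ℕ → V) (n : ℕ), (∀ i < n, Unsat D w (u i) (u (i + 1))) →
        ∀ i j, i < j → j ≤ n → ¬ Near D (u j) (u i)) ∧
      (Nonempty V → ∃ v, ∀ x, ¬ Unsat D w v x)) :=
  ⟨fun _ _ => exists_card_eq_closed, fun _ _ _ hne hS hw hp => exists_eq_closed hne hS hw hp,
    fun _ _ h => h.hall, fun _ _ hw hp =>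
      ⟨fun _ n h => (nrWalk_of_unsat hw hp n h).nr, fun _ => exists_no_unsat hw hp⟩⟩
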