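import Vale.Agent.P038.K4.Main
import Vale.Agent.P038.Horn.Class

open Vale.Agent.P038 Vale.Agent.P038.K4 Vale.Agent.P038.Horn

universe u

/-- Seymour's second neighbourhood conjecture, unweighted and with arbitrary nonnegative vertex
weights, (1) for every nonempty finite oriented graph that has a Horn relation, (2) in particular
for every one without a far matching, so for every one whose missing edges form a threshold graph,
(3) for every one in the class `Gen` generated by the oriented graphs with a Horn relation and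
those without `K₄` (or all of whose `K₄`s are a cyclic triangle dominating a vertex), under
substitution and domination; and (4) substituting arbitrary oriented graphs that satisfy the conjecture for the
vertices of a member of `Gen` gives an oriented graph that satisfies it. -/
theorem Vale.Agent.Results.P038.HornClass.result :
    (∀ {V : Type u} [Fintype V] [Nonempty V] (D : OGraph V), HornClosed D →
      (∃ v, (N1 D v).card ≤ (N2 D v).card) ∧
      ∀ w : V → ℝ, (∀ v, 0 ≤ w v) → ∃ v, ∑ x ∈ N1 D v, w x ≤ ∑ x ∈ N2 D v, w x) ∧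
    (∀ {V : Type u} (D : OGraph V), NoFarMatching D → HornClosed D) ∧
    (∀ {V : Type u} (D : OGraph V), MissingThreshold D → NoFarMatching D) ∧
    (∀ {V : Type u} [Fintype V] [Nonempty V] (D : OGraph V), Gen D →
      (∃ v, (N1 D v).card ≤ (N2 D v).card) ∧
      ∀ w : V → ℝ, (∀ v, 0 ≤ w v) → ∃ v, ∑ x ∈ N1 D v, w x ≤ ∑ x ∈ N2 D v, w x) ∧
    (∀ {V Q : Type u} [Fintype V] [Nonempty V] (D : OGraph V) (E : OGraph Q) (π : V → Q)
      [∀ q, Fintype {x // π x = q}], Function.Surjective π →
      (∀ u v, π u ≠ π v → (D.arc u v ↔ E.arc (π u) (π v))) → Gen E →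
      (∀ q, ∃ v, (N1 (induced D (Subtype.val : {x // π x = q} → V)) v).card ≤
        (N2 (induced D (Subtype.val : {x // π x = q} → V)) v).card) →
      ∃ v, (N1 D v).card ≤ (N2 D v).card) := by
  have hP : ∀ {V : Type u} [Fintype V] [Nonempty V] (D : OGraph V), OnlySinkK4 D → Sub.WSNC D :=
    fun D hD w hw => snc_weighted D hD.noBad w hw
  have hG : ∀ {V : Type u} [Fintype V] [Nonempty V] (D : OGraph V), Gen D →
      (∃ v, (N1 D v).card ≤ (N2 D v).card) ∧
      ∀ w : V → ℝ, (∀ v, 0 ≤ w v) → ∃ v, ∑ x ∈ N1 D v, w x ≤ ∑ x ∈ N2 D v, w x := by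
    intro V _ _ D hD
    have h := hD.wsnc hP
    refine ⟨?_, h⟩
    obtain ⟨v, hv⟩ := h (fun _ => 1) (fun _ => zero_le_one)
    exact ⟨v, by simpa using hv⟩
  exact ⟨fun D hD => hG D (Gen.horn D hD), fun D h => h.hornClosed, fun D h => h.noFarMatching,
    hG, fun D E π _ hπ harc hE hF => Gen.card_subst hP D E π hπ harc hE hF⟩
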