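import Vale.Agent.Results.P038.AllClasses
import Vale.Agent.Results.P038.HornClass
import Vale.Agent.Results.P038.HallClass

open Vale.Agent.P038 Vale.Agent.P038.K4 Vale.Agent.P038.Horn Vale.Agent.P038.H194

universe u

/-- Seymour's second neighbourhood conjecture (constant 1; in (1)-(3) and (5) unweighted and with
vertex weights): (1) with a vertex `v0` of minimum outdegree such that no `K₄` meets `v0` and its
out-neighbours (or all these `K₄`s are cyclic triangles dominating a vertex), the second
neighbourhood inequality holds at `v0` or at an out-neighbour of it; (2) for every member of the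
class `Gen` generated, under substitution and domination, by the oriented graphs with a Horn
relation and those without `K₄` (or all of whose `K₄`s are a cyclic triangle dominating a vertex);
`Gen` contains the class `Built`, hence all tournaments, and all oriented graphs whose missing
edges form a threshold graph; (3) under substitution of arbitrary oriented graphs that satisfy the
conjecture for the vertices of a member of `Gen`; (4) constants above the known one when no vertex
has three, four pairwise joined out-neighbours; (5) with equality, if Hall's condition (with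
weights: fractional matchings) holds at the vertices of a nonempty set closed under arcs; (6) a
degree condition that implies Hall's condition. -/
theorem Vale.Agent.Results.P038.AllClassesAndHall.result :
    (∀ {V : Type u} [Fintype V] (D : OGraph V),
      (∀ v0, (∀ v, (N1 D v0).card ≤ (N1 D v).card) → (NoK4Near D v0 ∨ OnlySinkK4Near D v0) →
        ∃ v, (v = v0 ∨ D.arc v0 v) ∧ (N1 D v).card ≤ (N2 D v).card) ∧
      (∀ w : V → ℝ, (∀ v, 0 ≤ w v) → ∀ v0, (∀ v, ∑ x ∈ N1 D v0, w x ≤ ∑ x ∈ N1 D v, w x) →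
        (NoK4Near D v0 ∨ OnlySinkK4Near D v0) →
        ∃ v, (v = v0 ∨ D.arc v0 v) ∧ ∑ x ∈ N1 D v, w x ≤ ∑ x ∈ N2 D v, w x)) ∧
    (∀ {V : Type u} [Fintype V] [Nonempty V] (D : OGraph V), Gen D →
      (∃ v, (N1 D v).card ≤ (N2 D v).card) ∧
      ∀ w : V → ℝ, (∀ v, 0 ≤ w v) → ∃ v, ∑ x ∈ N1 D v, w x ≤ ∑ x ∈ N2 D v, w x) ∧
    (∀ {V : Type u} (D : OGraph V), (MissingThreshold D → NoFarMatching D) ∧
      (NoFarMatching D → HornClosed D) ∧ (Sub.Built D → Gen D)) ∧
    (∀ {V Q : Type u} [Fintype V] [Nonempty V] (D : OGraph V) (E : OGraph Q) (π : V → Q)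
      [∀ q, Fintype {x // π x = q}], Function.Surjective π →
      (∀ u v, π u ≠ π v → (D.arc u v ↔ E.arc (π u) (π v))) → Gen E →
      (∀ q, ∃ v, (N1 (induced D (Subtype.val : {x // π x = q} → V)) v).card ≤
        (N2 (induced D (Subtype.val : {x // π x = q} → V)) v).card) →
      ∃ v, (N1 D v).card ≤ (N2 D v).card) ∧
    (∀ {V : Type u} [Fintype V] [Nonempty V] (D : OGraph V) (w : V → ℝ), (∀ v, 0 ≤ w v) →
      (NoOutTriangle D →
        ∃ v, (2 + Real.sqrt 31) / 9 * ∑ x ∈ N1 D v, w x ≤ ∑ x ∈ N2 D v, w x) ∧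
      (Sub.NoOutK4 D → ∃ v, (483 / 625 : ℝ) * ∑ x ∈ N1 D v, w x ≤ ∑ x ∈ N2 D v, w x)) ∧
    (∀ {V : Type u} [Fintype V] (D : OGraph V) (S : Set V), S.Nonempty → OutClosed D S →
      (∀ v ∈ S, Hall D v) → ∃ v ∈ S, (N1 D v).card = (N2 D v).card) ∧
    (∀ {V : Type u} [Fintype V] (D : OGraph V) (S : Set V) (w : V → ℝ), S.Nonempty →
      OutClosed D S → (∀ v ∈ S, 0 < w v) → (∀ v ∈ S, ∃ φ, Plan D w v φ) →
      ∃ v ∈ S, ∑ x ∈ N1 D v, w x = ∑ z ∈ N2 D v, w z) ∧
    (∀ {V : Type u} [Fintype V] (D : OGraph V) (v : V), DegreeCondition D v → Hall D v) := by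
  have hB : ∀ {V : Type u} (D : OGraph V), Sub.Built D → Gen D := by
    intro V D hD
    induction hD with
    | k4 D h => exact Gen.k4 D h
    | tournament D h =>
      have hm : MissingThreshold D := fun a b c d hac _ hj _ _ _ => hj (h a c hac)
      exact Gen.horn D hm.noFarMatching.hornClosed
    | subst D E π hπ harc _ _ ihE ihF => exact Gen.subst D E π hπ harc ihE ihF
    | upstream D S hS hcl _ ih =>
      have : Nonempty S := hS.to_subtype
      refine Gen.dom D _ (Subtype.val : S → _) Subtype.val_injective (fun v => ⟨v.1, ?_, ?_⟩) ih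
      · intro x hx
        exact ⟨⟨x, hcl v.1 x v.2 hx⟩, rfl, hx⟩
      · rintro y ⟨h1, h2, z, h3, h4⟩
        exact ⟨fun h => h1 (Subtype.ext h), h2, z.1, h3, h4⟩
  obtain ⟨a1, -, -, a4, a5⟩ := Vale.Agent.Results.P038.AllClasses.result.{u}
  obtain ⟨-, h2, h3, h4, h5⟩ := Vale.Agent.Results.P038.HornClass.result.{u}
  obtain ⟨b1, b2, b3, -⟩ := Vale.Agent.Results.P038.HallClass.result.{u}
  exact ⟨fun D => a1 D, fun D hD => h4 D hD, fun D => ⟨fun h => h3 D h, fun h => h2 D h,
      fun h => hB D h⟩,
    fun D E π => h5 D E π, fun D w hw => ⟨fun h => (a4 D h).2 w hw, fun h => (a5 D h).2 w hw⟩,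
    fun D S => b1 D S, fun D S w => b2 D S w, fun D v => b3 D v⟩
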