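import Vale.Agent.P038.H139.StarB

open Vale.Agent.P038

universe u

/-- **Seymour's second neighbourhood conjecture.** Every nonempty finite oriented graph has a vertex
`v` with `|N₁(v)| ≤ |N₂(v)|`; more generally, for all nonnegative vertex weights `w` some vertex `v`
has `w(N₁(v)) ≤ w(N₂(v))`. -/
theorem Vale.Agent.Results.P038.AllGraphs.result :
    ∀ {V : Type u} [Fintype V] [Nonempty V] (D : OGraph V),
      (∃ v, (N1 D v).card ≤ (N2 D v).card) ∧
      ∀ w : V → ℝ, (∀ v, 0 ≤ w v) → ∃ v, ∑ x ∈ N1 D v, w x ≤ ∑ x ∈ N2 D v, w x := by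
  intro V _ _ D
  refine ⟨?_, fun w hw => H139.snc D w hw⟩
  obtain ⟨v, hv⟩ := H139.snc D (fun _ => (1 : ℝ)) (fun _ => zero_le_one)
  refine ⟨v, ?_⟩
  simpa using hv
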