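import Vale.Agent.P038.H139.Final

open Vale.Agent.P038

universe u

/-- A constant for Seymour's second neighbourhood conjecture, for ALL finite oriented graphs and all
nonnegative vertex weights: for every `lam ≥ 0` with `lam ^ 2 + lam ^ 3 ≤ 1` some vertex `v` has
`w(N₂(v)) ≥ lam * w(N₁(v))`, in particular `|N₂(v)| ≥ lam * |N₁(v)|`; the largest such `lam` is the
real root of `x ^ 2 + x ^ 3 = 1`, which is larger than `0.75487`. -/
theorem Vale.Agent.Results.P038.AllGraphsConstant.result :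
    (∀ {V : Type u} [Fintype V] [Nonempty V] (D : OGraph V) (lam : ℝ), 0 ≤ lam →
      lam ^ 2 + lam ^ 3 ≤ 1 →
      (∃ v, lam * (N1 D v).card ≤ (N2 D v).card) ∧
      ∀ w : V → ℝ, (∀ v, 0 ≤ w v) → ∃ v, lam * ∑ x ∈ N1 D v, w x ≤ ∑ x ∈ N2 D v, w x) ∧
    ∃ lam : ℝ, 0.75487 < lam ∧ lam ^ 2 + lam ^ 3 = 1 ∧
      ∀ {V : Type u} [Fintype V] [Nonempty V] (D : OGraph V),
        (∃ v, lam * (N1 D v).card ≤ (N2 D v).card) ∧
        ∀ w : V → ℝ, (∀ v, 0 ≤ w v) → ∃ v, lam * ∑ x ∈ N1 D v, w x ≤ ∑ x ∈ N2 D v, w x := by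
  have key : ∀ {V : Type u} [Fintype V] [Nonempty V] (D : OGraph V) (lam : ℝ), 0 ≤ lam →
      lam ^ 2 + lam ^ 3 ≤ 1 →
      (∃ v, lam * (N1 D v).card ≤ (N2 D v).card) ∧
      ∀ w : V → ℝ, (∀ v, 0 ≤ w v) → ∃ v, lam * ∑ x ∈ N1 D v, w x ≤ ∑ x ∈ N2 D v, w x := by
    intro V _ _ D lam h0 h1
    refine ⟨?_, fun w hw => H139.main h0 h1 D w hw⟩
    obtain ⟨v, hv⟩ := H139.main h0 h1 D (fun _ => (1 : ℝ)) (fun _ => zero_le_one)
    refine ⟨v, ?_⟩
    simpa using hv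
  refine ⟨key, ?_⟩
  have hcont : ContinuousOn (fun x : ℝ => x ^ 2 + x ^ 3) (Set.Icc (0.75487 : ℝ) 1) := by fun_prop
  have hiv := intermediate_value_Icc (a := (0.75487 : ℝ)) (b := 1) (by norm_num) hcont
  obtain ⟨lam, hlam, hval⟩ := hiv (show (1 : ℝ) ∈ _ by constructor <;> norm_num)
  have hval' : lam ^ 2 + lam ^ 3 = 1 := hval
  have hlt : 0.75487 < lam := by
    rcases lt_or_eq_of_le hlam.1 with h | h
    · exact h
    · rw [← h] at hval'
      norm_num at hval'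
  exact ⟨lam, hlt, hval', fun D => key D lam (by linarith [hlam.1]) hval'.le⟩
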