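import Vale.Agent.P038.H38.Hall

open Vale.Agent.P038 Vale.Agent.P038.H38

universe u

/-- Seymour's second neighbourhood conjecture for a class of oriented graphs that contains all
tournaments. Call an arc acyclic if it lies in no directed triangle (`R`); `Q D u z` means that
`z` is a second out-neighbour of `u` and that there is no arc between `u` and `z`. Suppose that for
every pair with `Q D u z` there is a path `z → y → u` of two acyclic arcs. (1) If in addition at
every vertex `u` every set `Z` of vertices `z` with `Q D u z` has at least `|Z|` in-neighbours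
among the ends of the acyclic arcs from `u`, some vertex `s` has `|N₁⁺(s)| ≤ |N₂⁺(s)|`. (2) The
same with positive vertex weights and fractional matchings. (3) Tournaments satisfy all these
conditions (with every weight), since `Q` is empty. -/
theorem Vale.Agent.Results.P038.AllMixedHallClass.result :
    (∀ {V : Type u} [Fintype V] [Nonempty V] (D : OGraph V), ReturnQ D → (∀ u, HallQ D u) →
      ∃ s, (N1 D s).card ≤ (N2 D s).card) ∧
    (∀ {V : Type u} [Fintype V] [Nonempty V] (D : OGraph V) (w : V → ℝ), (∀ v, 0 < w v) →
      ReturnQ D → (∀ u, FracMatchingQ D w u) →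
      ∃ s, ∑ x ∈ N1 D s, w x ≤ ∑ z ∈ N2 D s, w z) ∧
    (∀ {V : Type u} [Fintype V] (D : OGraph V), (∀ u v, u ≠ v → Joined D u v) →
      ReturnQ D ∧ (∀ u, HallQ D u) ∧ ∀ w : V → ℝ, (∀ v, 0 < w v) → ∀ u, FracMatchingQ D w u) :=
  ⟨fun _ hr h => exists_card hr h, fun _ _ hw hr h => exists_weighted hw hr h,
    fun _ h => tournament_mem h⟩
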