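import Vale.Agent.P038.H674.G

open Vale.Agent.P038

universe u

/-- Seymour's second neighbourhood conjecture: every nonempty finite oriented graph has a vertex
whose second out-neighbourhood is at least as large as its out-neighbourhood. -/
theorem Vale.Agent.Results.P038.AllOrientedGraphs.result :
    ∀ {V : Type u} [Fintype V] [Nonempty V] (D : OGraph V),
      ∃ v, (N1 D v).card ≤ (N2 D v).card :=
  fun D => H674.snc D
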