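import Vale.Agent.P038.H518.Snc

/-! # Seymour's second neighbourhood conjecture -/

set_option autoImplicit false

namespace Vale.Agent.Results.P038.SecondNeighbourhood

/-- an oriented graph: no loops, no pair of opposite arcs -/
def IsOriented {V : Type} (A : V → V → Prop) : Prop := (∀ v, ¬ A v v) ∧ ∀ u v, A u v → ¬ A v u

/-- the out-neighbours of `v` -/
def N1 {V : Type} (A : V → V → Prop) (v : V) : Set V := {u | A v u}

/-- the vertices at directed distance exactly two from `v` -/
def N2 {V : Type} (A : V → V → Prop) (v : V) : Set V := {w | w ≠ v ∧ ¬ A v w ∧ ∃ u, A v u ∧ A u w}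

/-- **Question 1** -/
theorem result : ∀ (V : Type) [Finite V] [Nonempty V] (A : V → V → Prop), IsOriented A →
    ∃ v, (N1 A v).ncard ≤ (N2 A v).ncard := by
  intro V _ _ A hA
  classical
  haveI := Fintype.ofFinite V
  have hO : Vale.Agent.P038.H518.Ori (fun v => Finset.univ.filter (fun u => A v u)) :=
    ⟨fun v => by simp [hA.1 v], fun u v h => by
      simp only [Finset.mem_filter, Finset.mem_univ, true_and] at h ⊢
      exact hA.2 u v h⟩
  obtain ⟨v, hv⟩ := Vale.Agent.P038.H518.snc _ hO
  refine ⟨v, ?_⟩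
  have h1 : N1 A v = ((Finset.univ.filter (fun u => A v u) : Finset V) : Set V) := by
    ext u; simp [N1]
  have h2 : N2 A v = ((Vale.Agent.P038.H518.D2 (fun v => Finset.univ.filter (fun u => A v u)) v : Finset V) : Set V) := by
    ext w
    simp only [N2, Set.mem_setOf_eq, Finset.mem_coe, Vale.Agent.P038.H518.mem_D2, Finset.mem_filter, Finset.mem_univ,
      true_and]
    constructor
    · rintro ⟨_, h, u, hu⟩
      exact ⟨⟨u, hu⟩, h⟩
    · rintro ⟨⟨u, hu, hw⟩, h⟩
      refine ⟨?_, h, u, hu, hw⟩
      rintro rfl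
      exact hA.2 _ _ hu hw
  rw [h1, h2, Set.ncard_coe_finset, Set.ncard_coe_finset]
  exact hv

end Vale.Agent.Results.P038.SecondNeighbourhood
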