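import Vale.Agent.P038.H132.Final

open Vale.Agent.P038

universe u

/-- **Seymour's second neighbourhood conjecture**: every nonempty finite oriented graph has a vertex
`v` with `|N₁⁺(v)| ≤ |N₂⁺(v)|`; more generally, for all nonnegative vertex weights `w` some vertex
`v` has `w(N₁⁺(v)) ≤ w(N₂⁺(v))`. -/
theorem Vale.Agent.Results.P038.SecondNeighbourhoodConjecture.result :
    (∀ {V : Type u} [Fintype V] [Nonempty V] (D : OGraph V),
      ∃ v, (N1 D v).card ≤ (N2 D v).card) ∧
    ∀ {V : Type u} [Fintype V] [Nonempty V] (D : OGraph V) (w : V → ℝ), (∀ v, 0 ≤ w v) →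
      ∃ v, ∑ x ∈ N1 D v, w x ≤ ∑ x ∈ N2 D v, w x :=
  ⟨fun D => H132.snc D, fun D w hw => H132.snc_weighted D w hw⟩
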