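import Vale.Agent.P038.H323.Main

open Vale.Agent.P038

/-- **Seymour's second neighbourhood conjecture.** Every nonempty finite oriented graph has a vertex
`v` with `|N₁⁺(v)| ≤ |N₂⁺(v)|`. -/
theorem Vale.Agent.Results.P038.Seymour.result
    {V : Type*} [Fintype V] [Nonempty V] (D : OGraph V) :
    ∃ v, (N1 D v).card ≤ (N2 D v).card :=
  Vale.Agent.P038.H323.seymour D
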