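import Vale.Agent.P038.H500.Cut

/-- **Seymour's second neighbourhood conjecture.** Every nonempty finite oriented graph `D` (a
relation such that `D u v` and `D v u` never hold together, in particular without loops) has a
vertex `v` with `|N₁⁺(v)| ≤ |N₂⁺(v)|`. -/
theorem Vale.Agent.Results.P038.SeymourFull.result {V : Type*} [Finite V] [Nonempty V]
    (D : V → V → Prop) (hD : ∀ u v, D u v → ¬ D v u) :
    ∃ v, {u | D v u}.ncard ≤ {z | z ≠ v ∧ ¬ D v z ∧ ∃ u, D v u ∧ D u z}.ncard := by
  classical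
  cases nonempty_fintype V
  obtain ⟨v, hv⟩ := Vale.Agent.P038.H500.snc D hD
  refine ⟨v, ?_⟩
  have h1 : {u | D v u} = (Vale.Agent.P038.H500.out1 D v : Set V) := by
    ext u
    simp [Vale.Agent.P038.H500.mem_out1]
  have h2 : {z | z ≠ v ∧ ¬ D v z ∧ ∃ u, D v u ∧ D u z} =
      (Vale.Agent.P038.H500.out2 D v : Set V) := by
    ext u
    simp [Vale.Agent.P038.H500.mem_out2]
  rw [h1, h2, Set.ncard_coe_finset, Set.ncard_coe_finset]
  exact hv
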