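import Vale.Agent.P038.H570.Asm

open Vale.Agent.P038

universe u

/-- **Seymour's second neighbourhood conjecture.** Every nonempty finite oriented graph has a vertex
`v` with `|N₁⁺(v)| ≤ |N₂⁺(v)|`; more generally for every nonnegative vertex weight `w` there is a
vertex `v` with `w(N₁⁺(v)) ≤ w(N₂⁺(v))`. -/
theorem Vale.Agent.Results.P038.SeymourSNC.result
    {V : Type u} [Fintype V] [Nonempty V] (D : OGraph V) :
    (∃ v, (N1 D v).card ≤ (N2 D v).card) ∧
      ∀ w : V → ℝ, (∀ v, 0 ≤ w v) → ∃ v, ∑ x ∈ N1 D v, w x ≤ ∑ x ∈ N2 D v, w x := by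
  refine ⟨?_, fun w hw => H570.snc D w hw⟩
  obtain ⟨v, hv⟩ := H570.snc D (fun _ => (1 : ℝ)) (fun _ => zero_le_one)
  refine ⟨v, ?_⟩
  have h : ((N1 D v).card : ℝ) ≤ ((N2 D v).card : ℝ) := by simpa using hv
  exact_mod_cast h
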