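import Vale.Agent.P038.SN904.Main

open Vale.Agent.P038.SN904

/-- **Seymour's second neighbourhood conjecture.** Every nonempty finite oriented graph (`A` is the
arc relation, without loops and without opposite arcs) has a vertex `v` whose second
out-neighbourhood is at least as large as its out-neighbourhood. -/
theorem Vale.Agent.Results.P038.SeymourSecondNeighbourhood.result
    {V : Type*} [Finite V] [Nonempty V] (A : V → V → Prop)
    (loopless : ∀ v, ¬ A v v) (asymm : ∀ u v, A u v → ¬ A v u) :
    ∃ v, {u : V | A v u}.ncard ≤
      {x : V | x ≠ v ∧ ¬ A v x ∧ ∃ u, A v u ∧ A u x}.ncard := by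
  classical
  haveI : Fintype V := Fintype.ofFinite V
  by_contra hcon
  push Not at hcon
  apply no_CE (V := V)
  set N : V → Finset V := fun v => Finset.univ.filter (fun u => u = v ∨ A v u) with hN
  have mN : ∀ v u, u ∈ N v ↔ (u = v ∨ A v u) := by intro v u; simp [hN]
  refine ⟨N, ⟨?_, ?_⟩, ?_⟩
  · intro v; rw [mN]; exact Or.inl rfl
  · intro a b h1 h2
    rw [mN] at h1 h2
    rcases h1 with h1 | h1
    · exact h1.symm
    · rcases h2 with h2 | h2
      · exact h2
      · exact absurd h2 (asymm _ _ h1)
  · intro v
    have h := hcon v
    set M1 : Finset V := Finset.univ.filter (fun u => A v u) with hM1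
    set M2 : Finset V := Finset.univ.filter
      (fun x => x ≠ v ∧ ¬ A v x ∧ ∃ u, A v u ∧ A u x) with hM2
    have e1 : {u : V | A v u}.ncard = M1.card := by
      rw [← Set.ncard_coe_finset]; congr 1; ext u; simp [hM1]
    have e2 : {x : V | x ≠ v ∧ ¬ A v x ∧ ∃ u, A v u ∧ A u x}.ncard = M2.card := by
      rw [← Set.ncard_coe_finset]; congr 1; ext u; simp [hM2]
    rw [e1, e2] at h
    have e3 : (N v).card = M1.card + 1 := by
      have : N v = insert v M1 := by
        ext u; rw [mN, Finset.mem_insert, hM1, Finset.mem_filter]; simp
      rw [this, Finset.card_insert_of_notMem]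
      rw [hM1, Finset.mem_filter]
      exact fun h => loopless v h.2
    have e4 : (cl N (N v)).card ≤ (N v).card + M2.card := by
      have : cl N (N v) ⊆ N v ∪ M2 := by
        intro x hx
        obtain ⟨u, hu, hxu⟩ := mem_cl.1 hx
        by_cases hxN : x ∈ N v
        · exact Finset.mem_union_left _ hxN
        · apply Finset.mem_union_right
          rw [hM2, Finset.mem_filter]
          rw [mN] at hxN hu hxu
          push Not at hxN
          rcases hu with hu | hu
          · subst hu
            rcases hxu with hxu | hxu
            · exact absurd hxu hxN.1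
            · exact absurd hxu hxN.2
          · rcases hxu with hxu | hxu
            · subst hxu; exact absurd hu hxN.2
            · exact ⟨Finset.mem_univ _, hxN.1, hxN.2, u, hu, hxu⟩
      exact (Finset.card_le_card this).trans (Finset.card_union_le _ _)
    have h' : (M2.card : ℤ) + 1 ≤ M1.card := by exact_mod_cast h
    have e3' : ((N v).card : ℤ) = M1.card + 1 := by exact_mod_cast e3
    have e4' : ((cl N (N v)).card : ℤ) ≤ (N v).card + M2.card := by exact_mod_cast e4
    linarith
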